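import Mathlib
import Vale.Agent.Lib.P248.helper37.Q2Defs

/-!
P248 pool job J6 (helper66, second copy): the piece of the polar with a negative coordinate

For an admissible pair `(A, z)` in dimension `n + 1` and a coordinate `i`, the part of the polar
of `A` about `z` with exactly `k + 1` negative coordinates, one of them the coordinate `i`,
contains the set of all `y` with `-1 / z i < y i < 0` whose other coordinates are
`(1 + z i * y i)` times a point of the polar of the section with exactly `k` negative coordinates.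
Its volume is `1 / ((n + 1) * z i)` times the volume of that part of the polar of the section.
-/

open MeasureTheory Set

namespace Vale.Agent.Lib.P248.H66P

open Vale.Agent.Lib.P248.H37 Vale.Agent.Lib.P248.H37Q
open scoped Pointwise

theorem isClosed_polZ {m : ℕ} (A : Set (Fin m → ℝ)) (z : Fin m → ℝ) : IsClosed (polZ A z) := by
  have e : polZ A z = ⋂ x ∈ A, {y : Fin m → ℝ | ∑ i, (x i - z i) * y i ≤ 1} := by
    ext y; simp [polZ]
  rw [e]
  refine isClosed_biInter (fun x _ => isClosed_le ?_ continuous_const)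
  exact continuous_finsetSum _ (fun i _ => continuous_const.mul (continuous_apply i))

theorem negCount_eq_sum {m : ℕ} (y : Fin m → ℝ) :
    negCount y = ∑ i, if y i < 0 then 1 else 0 := by
  unfold negCount
  rw [Finset.card_filter]

theorem measurable_negCount {m : ℕ} : Measurable (negCount : (Fin m → ℝ) → ℕ) := by
  have e : (negCount : (Fin m → ℝ) → ℕ) = fun y => ∑ i, if y i < 0 then 1 else 0 := by
    funext y; exact negCount_eq_sum y
  rw [e]
  refine Finset.measurable_sum _ (fun i _ => ?_)
  exact Measurable.ite (measurableSet_lt (measurable_pi_apply i) measurable_const)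
    measurable_const measurable_const

theorem measurableSet_polK_aux {m : ℕ} (A : Set (Fin m → ℝ)) (z : Fin m → ℝ) (k : ℕ) :
    MeasurableSet (polK A z k) := by
  have e : polK A z k = polZ A z ∩ negCount ⁻¹' {k} := by
    ext y; simp [polK]
  rw [e]
  exact (isClosed_polZ A z).measurableSet.inter (measurable_negCount (measurableSet_singleton k))

theorem lintegral_profile (n : ℕ) (c : ℝ) (hc : 0 < c) :
    ∫⁻ t in Ioo (-1 / c) (0:ℝ), ENNReal.ofReal ((1 + c * t) ^ n)
      = ENNReal.ofReal (1 / (((n : ℝ) + 1) * c)) := by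
  have hc' : c ≠ 0 := hc.ne'
  have hle : -1 / c ≤ 0 := div_nonpos_of_nonpos_of_nonneg (by norm_num) hc.le
  have hcont : Continuous (fun t : ℝ => (1 + c * t) ^ n) := by fun_prop
  have hint : IntegrableOn (fun t : ℝ => (1 + c * t) ^ n) (Ioo (-1 / c) (0:ℝ)) :=
    (hcont.integrableOn_Icc).mono_set Ioo_subset_Icc_self
  have hnn : 0 ≤ᵐ[volume.restrict (Ioo (-1 / c) (0:ℝ))] (fun t : ℝ => (1 + c * t) ^ n) := by
    refine (ae_restrict_iff' measurableSet_Ioo).mpr (Filter.Eventually.of_forall fun t ht => ?_)
    have h1 := ht.1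
    rw [div_lt_iff₀ hc] at h1
    exact pow_nonneg (by linarith) n
  rw [← ofReal_integral_eq_lintegral_ofReal hint hnn]
  congr 1
  rw [← integral_Ioc_eq_integral_Ioo, ← intervalIntegral.integral_of_le hle]
  have hderiv : ∀ x ∈ uIcc (-1 / c) (0:ℝ),
      HasDerivAt (fun t : ℝ => (1 / (((n : ℝ) + 1) * c)) * (1 + c * t) ^ (n + 1))
        ((1 + c * x) ^ n) x := by
    intro x _
    have h1 : HasDerivAt (fun t : ℝ => 1 + c * t) c x := by
      have h0 := ((hasDerivAt_id x).const_mul c).const_add 1
      simpa using h0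
    have h2 : HasDerivAt (fun t : ℝ => (1 / (((n : ℝ) + 1) * c)) * (1 + c * t) ^ (n + 1))
        ((1 / (((n : ℝ) + 1) * c)) * (((n + 1 : ℕ) : ℝ) * (1 + c * x) ^ (n + 1 - 1) * c)) x :=
      (h1.pow (n + 1)).const_mul _
    refine h2.congr_deriv ?_
    have hn : (n : ℝ) + 1 ≠ 0 := by positivity
    rw [Nat.add_sub_cancel]
    push_cast
    field_simp
  rw [intervalIntegral.integral_eq_sub_of_hasDerivAt hderiv (hcont.intervalIntegrable _ _)]
  have h0 : (1 + c * (-1 / c)) = 0 := by
    have h00 : c * (-1 / c) = -1 := by field_simp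
    rw [h00]; norm_num
  simp only [h0]
  simp

/-- The cone-like set over `S`, in product coordinates. -/
def coneF (n : ℕ) (c : ℝ) (S : Set (Fin n → ℝ)) : Set (ℝ × (Fin n → ℝ)) :=
  {p | p.1 ∈ Ioo (-1 / c) (0:ℝ) ∧ (1 + c * p.1)⁻¹ • p.2 ∈ S}

theorem measurableSet_coneF (n : ℕ) (c : ℝ) {S : Set (Fin n → ℝ)} (hS : MeasurableSet S) :
    MeasurableSet (coneF n c S) := by
  have hg : Measurable (fun p : ℝ × (Fin n → ℝ) => (1 + c * p.1)⁻¹ • p.2) :=
    ((measurable_const.add (measurable_const.mul measurable_fst)).inv).smul measurable_snd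
  have e : coneF n c S = (Prod.fst ⁻¹' Ioo (-1 / c) (0:ℝ)) ∩
      (fun p : ℝ × (Fin n → ℝ) => (1 + c * p.1)⁻¹ • p.2) ⁻¹' S := by
    ext p
    rfl
  rw [e]
  exact (measurable_fst measurableSet_Ioo).inter (hg hS)

theorem volume_coneF (n : ℕ) (c : ℝ) (hc : 0 < c) {S : Set (Fin n → ℝ)} (hS : MeasurableSet S) :
    (volume : Measure (ℝ × (Fin n → ℝ))) (coneF n c S)
      = ENNReal.ofReal (1 / (((n : ℝ) + 1) * c)) * volume S := by
  rw [Measure.volume_eq_prod, Measure.prod_apply (measurableSet_coneF n c hS)]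
  have hsec : ∀ t : ℝ, volume (Prod.mk t ⁻¹' coneF n c S)
      = (Ioo (-1 / c) (0:ℝ)).indicator
          (fun s => ENNReal.ofReal ((1 + c * s) ^ n) * volume S) t := by
    intro t
    by_cases ht : t ∈ Ioo (-1 / c) (0:ℝ)
    · rw [indicator_of_mem ht]
      have hpos : 0 < 1 + c * t := by
        have h1 := ht.1
        rw [div_lt_iff₀ hc] at h1
        linarith
      have e : Prod.mk t ⁻¹' coneF n c S = (1 + c * t) • S := by
        ext v
        rw [Set.mem_smul_set_iff_inv_smul_mem₀ hpos.ne']
        constructor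
        · intro hv
          exact hv.2
        · intro hv
          exact ⟨ht, hv⟩
      rw [e, Measure.addHaar_smul, Module.finrank_fin_fun, abs_of_nonneg (pow_nonneg hpos.le n)]
    · rw [indicator_of_notMem ht]
      have e : Prod.mk t ⁻¹' coneF n c S = ∅ := by
        ext v
        simp only [mem_empty_iff_false, iff_false]
        exact fun hv => ht hv.1
      rw [e, measure_empty]
  rw [lintegral_congr hsec, lintegral_indicator measurableSet_Ioo,
    lintegral_mul_const _ (by fun_prop), lintegral_profile n c hc]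

theorem pfs_apply {n : ℕ} (i : Fin (n + 1)) (y : Fin (n + 1) → ℝ) :
    MeasurableEquiv.piFinSuccAbove (fun _ => ℝ) i y = (y i, fun j => y (i.succAbove j)) := rfl

theorem polK_piece {n : ℕ} {A : Set (Fin (n + 1) → ℝ)} {z : Fin (n + 1) → ℝ} (h : Adm A z)
    (i : Fin (n + 1)) (k : ℕ) :
    ENNReal.ofReal (1 / (((n : ℝ) + 1) * z i)) *
        volume (polK (sec A i) (fun j => z (i.succAbove j)) k) ≤
      volume (polK A z (k + 1) ∩ {y | y i < 0}) := by
  have hc : 0 < z i := h.pos i
  have hSm : MeasurableSet (polK (sec A i) (fun j => z (i.succAbove j)) k) :=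
    measurableSet_polK_aux _ _ _
  have hvol : volume ((MeasurableEquiv.piFinSuccAbove (fun _ => ℝ) i) ⁻¹'
      coneF n (z i) (polK (sec A i) (fun j => z (i.succAbove j)) k))
      = ENNReal.ofReal (1 / (((n : ℝ) + 1) * z i)) *
        volume (polK (sec A i) (fun j => z (i.succAbove j)) k) := by
    rw [(volume_preserving_piFinSuccAbove (fun _ => ℝ) i).measure_preimage_equiv,
      volume_coneF n (z i) hc hSm]
  rw [← hvol]
  apply measure_mono
  intro y hy
  have hy2 : (y i, fun j => y (i.succAbove j)) ∈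
      coneF n (z i) (polK (sec A i) (fun j => z (i.succAbove j)) k) := by
    rw [← pfs_apply]
    exact hy
  obtain ⟨ht, hw⟩ := hy2
  obtain ⟨hw1, hw2⟩ := hw
  have hlam : 0 < 1 + z i * y i := by
    have h1 := ht.1
    rw [div_lt_iff₀ hc] at h1
    linarith
  have hiff : ∀ j, ((1 + z i * y i)⁻¹ • (fun j => y (i.succAbove j))) j < 0 ↔
      y (i.succAbove j) < 0 := by
    intro j
    simp only [Pi.smul_apply, smul_eq_mul]
    constructor
    · intro hneg
      by_contra hv
      have hv' : 0 ≤ y (i.succAbove j) := not_lt.1 hv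
      have h3 := mul_nonneg (inv_pos.2 hlam).le hv'
      linarith
    · intro hneg
      exact mul_neg_of_pos_of_neg (inv_pos.2 hlam) hneg
  refine ⟨⟨?_, ?_⟩, ht.2⟩
  · intro x hx
    have hx' : (fun j => x (i.succAbove j)) ∈ sec A i := by
      show (Fin.insertNth i (0 : ℝ) (fun j => x (i.succAbove j)) : Fin (n + 1) → ℝ) ∈ A
      refine h.good.down x hx _ (i.forall_iff_succAbove.2 ⟨?_, fun j => ?_⟩)
      · rw [ins_same]
        exact ⟨le_refl _, h.good.nonneg x hx i⟩
      · rw [ins_succ]
        exact ⟨h.good.nonneg x hx _, le_refl _⟩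
    have hsum := hw1 _ hx'
    have hkey : ∑ j, (x (i.succAbove j) - z (i.succAbove j)) * y (i.succAbove j)
        = (1 + z i * y i) * ∑ j, (x (i.succAbove j) - z (i.succAbove j)) *
            ((1 + z i * y i)⁻¹ • (fun j => y (i.succAbove j))) j := by
      rw [Finset.mul_sum]
      apply Finset.sum_congr rfl
      intro j _
      simp only [Pi.smul_apply, smul_eq_mul]
      field_simp
    rw [Fin.sum_univ_succAbove _ i, hkey]
    have h1 := mul_le_mul_of_nonneg_left hsum hlam.le
    have h2 : x i * y i ≤ 0 :=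
      mul_nonpos_of_nonneg_of_nonpos (h.good.nonneg x hx i) ht.2.le
    have h3 : (x i - z i) * y i = x i * y i - z i * y i := by ring
    linarith
  · rw [negCount_eq_sum, Fin.sum_univ_succAbove _ i, if_pos ht.2]
    have hcnt : ∑ j, (if y (i.succAbove j) < 0 then 1 else 0)
        = negCount ((1 + z i * y i)⁻¹ • (fun j => y (i.succAbove j))) := by
      rw [negCount_eq_sum]
      apply Finset.sum_congr rfl
      intro j _
      by_cases hv : y (i.succAbove j) < 0
      · rw [if_pos hv, if_pos ((hiff j).2 hv)]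
      · rw [if_neg hv, if_neg (fun hh => hv ((hiff j).1 hh))]
    rw [hcnt, hw2]
    exact add_comm 1 k

end Vale.Agent.Lib.P248.H66P
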