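import Mathlib
import Vale.Agent.Lib.P248.helper25.ABDefs

namespace Vale.Agent.Lib.P248.H66

open Vale.Agent.Lib.P248.H25 MeasureTheory
open scoped ENNReal

/-- Inserting `0` at `i` into the rescaled point equals the rescaled inserted point. -/
theorem insertNth_key {n : ℕ} (x : Fin (n + 1) → ℝ) (i : Fin (n + 1)) (s : ℝ)
    (z : Fin n → ℝ) :
    (i.insertNth (0 : ℝ)
        ((x i - s)⁻¹ • (x i • z - s • (fun j => x (i.succAbove j)))) : Fin (n + 1) → ℝ) =
      (x i - s)⁻¹ • (x i • (i.insertNth s z : Fin (n + 1) → ℝ) - s • x) := by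
  funext j
  refine Fin.succAboveCases i ?_ ?_ j
  · simp only [Fin.insertNth_apply_same, Pi.smul_apply, Pi.sub_apply, smul_eq_mul]
    ring
  · intro k
    simp only [Fin.insertNth_apply_succAbove, Pi.smul_apply, Pi.sub_apply, smul_eq_mul]

/-- The slice of the cone at height `s` is an affine preimage of the face (pool job P248-AB8). -/
theorem slice_eq {n : ℕ} (A : Set (Fin (n + 1) → ℝ)) (x : Fin (n + 1) → ℝ)
    (i : Fin (n + 1)) {s : ℝ} (hs0 : 0 < s) (hs : s < x i) :
    {z : Fin n → ℝ | (i.insertNth s z : Fin (n + 1) → ℝ) ∈ cone A x i} =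
      (fun z : Fin n → ℝ => (x i - s)⁻¹ • (x i • z - s • (fun j => x (i.succAbove j)))) ⁻¹'
        (sec A i ∩ {b | ∀ j, 0 < b j}) := by
  have hinv : 0 < (x i - s)⁻¹ := inv_pos.2 (sub_pos.2 hs)
  ext z
  simp only [Set.mem_ofPred_eq, Set.mem_preimage, Set.mem_inter_iff, cone, sec,
    Fin.insertNth_apply_same]
  rw [insertNth_key]
  constructor
  · rintro ⟨_, _, hpos, hA⟩
    refine ⟨hA, fun k => ?_⟩
    have h := hpos (i.succAbove k) (Fin.succAbove_ne i k)
    rw [Fin.insertNth_apply_succAbove] at h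
    simp only [Pi.smul_apply, Pi.sub_apply, smul_eq_mul]
    exact mul_pos hinv h
  · rintro ⟨hA, hpos⟩
    refine ⟨hs0, hs, fun j hj => ?_, hA⟩
    obtain ⟨k, rfl⟩ := Fin.exists_succAbove_eq hj
    have h := hpos k
    simp only [Pi.smul_apply, Pi.sub_apply, smul_eq_mul] at h
    rw [Fin.insertNth_apply_succAbove]
    exact (mul_pos_iff_of_pos_left hinv).1 h

end Vale.Agent.Lib.P248.H66
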